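import Vale.Agent.P088.H43.B.Bd
import Vale.Agent.P088.H639.Conc2

/-!
# P088, stage 2: the boundary step (row BDE) from the concentrating functions of `H639`
-/

open MeasureTheory Set Filter
open scoped ContDiff Matrix Topology

noncomputable section

namespace Vale.Agent.P088.LR.B.H43

open Vale.Agent.P088.LR Vale.Agent.P088.LR.B Vale.Agent.P088.H639

variable {n : ℕ} {ρ : V n → ℝ}

/-- the estimate at a boundary point -/
lemma key' (hρ : Dom ρ) {t : MF n}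
    (hen : ∀ U : V n → ℂ, ContDiff ℝ ∞ U → (∀ x ∈ Om ρ, dv (fun _ => 1) U x = 0) →
      ‖bl (Om ρ) (fun x => t x - 1) U (fun x => (starRingEnd ℂ) (U x))‖ ≤
        2 * n * ∫ x in Om ρ, ∑ i, ∑ j, |t x i j - dl i j| ^ 2 * ‖pd j U x‖ ^ 2)
    {m : ℕ} {b : Fin n → Fin n → V n → ℝ} (hb : ∀ i j, ContDiff ℝ ∞ (b i j))
    (hs : ∀ i j x, b i j x = b j i x) (hh : ∀ x i j, t x i j - dl i j = ρ x ^ m * b i j x)
    {p : V n} (hp : ρ p = 0) {ν τ : V n} (h1 : ∑ i, ν i ^ 2 = 1) (h2 : ∑ i, τ i ^ 2 = 1)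
    (h3 : ∑ i, ν i * τ i = 0) (hν : ∃ c > 0, ∀ i, pd i ρ p = c * ν i)
    (hbν : ∀ i, ∑ j, b i j p * ν j = 0) :
    |∑ i, ∑ j, b i j p * (τ i * τ j)| ≤ 4 * n * (ρ p ^ m * ∑ i, ∑ j, b i j p ^ 2) := by
  have cb : ∀ i j, Continuous (b i j) := fun i j => (hb i j).continuous
  have cm : Continuous fun x => ρ x ^ m := hρ.sm.continuous.pow m
  have hbd : Bornology.IsBounded (Om ρ) := core_compact.isBounded.subset (om_core hρ)
  obtain ⟨U, hU, hUh, hUZ⟩ := conc_in (Ω := Om ρ) hρ.sm rfl hbd hp h1 h2 h3 hν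
  obtain ⟨Z, hZ, hlim⟩ := hUZ m
  set q : ℝ := ∑ i, ∑ j, b i j p * (τ i * τ j) with hq
  set ζ : Fin n → ℂ := fun i => (ν i : ℂ) + Complex.I * τ i with hζ
  have hζc : ∀ j, (starRingEnd ℂ) (ζ j) = (ν j : ℂ) - Complex.I * τ j := fun j => by
    simp only [hζ, map_add, map_mul, Complex.conj_ofReal, Complex.conj_I]
    ring
  have hθq : ∑ i, ∑ j, (b i j p : ℂ) * (ζ i * (starRingEnd ℂ) (ζ j)) = (q : ℂ) := by
    simp only [hζc]
    exact contr (fun i j => hs i j p) hbν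
  have cU : ∀ N i, Continuous (pd i (U N)) := fun N => pd_cont (hU N)
  have cUc : ∀ N i, Continuous fun x => (starRingEnd ℂ) (pd i (U N) x) := fun N i =>
    Complex.continuous_conj.comp (cU N i)
  have cr : Continuous fun x => ((ρ x ^ m : ℝ) : ℂ) := Complex.continuous_ofReal.comp cm
  -- left side
  have L1 : Tendsto (fun N => ((Z N : ℝ) : ℂ)⁻¹ *
      bl (Om ρ) (fun x => t x - 1) (U N) (fun x => (starRingEnd ℂ) (U N x))) atTop
      (𝓝 (q : ℂ)) := by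
    have h4 : Tendsto (fun N => ∑ i, ∑ j, ((Z N : ℝ) : ℂ)⁻¹ * ∫ x in Om ρ,
        ((ρ x ^ m : ℝ) : ℂ) * ((b i j x : ℝ) : ℂ) * pd i (U N) x *
          (starRingEnd ℂ) (pd j (U N) x)) atTop
        (𝓝 (∑ i, ∑ j, ((b i j p : ℝ) : ℂ) * ζ i * (starRingEnd ℂ) (ζ j))) :=
      tendsto_finsetSum _ fun i _ => tendsto_finsetSum _ fun j _ =>
        hlim (fun x => ((b i j x : ℝ) : ℂ))
          (Complex.continuous_ofReal.comp (cb i j)).continuousOn i j
    have h5 : ∑ i, ∑ j, ((b i j p : ℝ) : ℂ) * ζ i * (starRingEnd ℂ) (ζ j) = (q : ℂ) := by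
      rw [← hθq]
      exact Finset.sum_congr rfl fun i _ => Finset.sum_congr rfl fun j _ => by ring
    rw [h5] at h4
    refine h4.congr fun N => ?_
    simp only [← Finset.mul_sum]
    congr 1
    have i1 : ∀ i j, IntegrableOn (fun x => ((ρ x ^ m : ℝ) : ℂ) * ((b i j x : ℝ) : ℂ) *
        pd i (U N) x * (starRingEnd ℂ) (pd j (U N) x)) (Om ρ) := fun i j =>
      om_int hρ (((cr.mul (Complex.continuous_ofReal.comp (cb i j))).mul (cU N i)).mul (cUc N j))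
    unfold bl
    rw [← (integral_finsetSum _ fun i _ => integrable_finsetSum _ fun j _ => i1 i j).trans
      (Finset.sum_congr rfl fun i _ => integral_finsetSum _ fun j _ => i1 i j)]
    refine integral_congr_ae (Eventually.of_forall fun x => ?_)
    simp only [pd_conj (hU N)]
    refine Finset.sum_congr rfl fun i _ => Finset.sum_congr rfl fun j _ => ?_
    have h6 : (t x - 1) i j = ρ x ^ m * b i j x := by
      rw [← hh x i j]
      rfl
    rw [h6]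
    push_cast
    ring
  -- right side
  have R1 : Tendsto (fun N => ((Z N : ℝ) : ℂ)⁻¹ * ((∫ x in Om ρ, ∑ i, ∑ j,
      |t x i j - dl i j| ^ 2 * ‖pd j (U N) x‖ ^ 2 : ℝ) : ℂ)) atTop
      (𝓝 (((ρ p ^ m * ∑ i, ∑ j, b i j p ^ 2 * (ν j ^ 2 + τ j ^ 2) : ℝ)) : ℂ)) := by
    have h4 : Tendsto (fun N => ∑ i, ∑ j, ((Z N : ℝ) : ℂ)⁻¹ * ∫ x in Om ρ,
        ((ρ x ^ m : ℝ) : ℂ) * ((ρ x ^ m * b i j x ^ 2 : ℝ) : ℂ) * pd j (U N) x *
          (starRingEnd ℂ) (pd j (U N) x)) atTop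
        (𝓝 (∑ i, ∑ j, ((ρ p ^ m * b i j p ^ 2 : ℝ) : ℂ) * ζ j * (starRingEnd ℂ) (ζ j))) :=
      tendsto_finsetSum _ fun i _ => tendsto_finsetSum _ fun j _ =>
        hlim (fun x => ((ρ x ^ m * b i j x ^ 2 : ℝ) : ℂ))
          (Complex.continuous_ofReal.comp (cm.mul ((cb i j).pow 2))).continuousOn j j
    have h5 : ∑ i, ∑ j, ((ρ p ^ m * b i j p ^ 2 : ℝ) : ℂ) * ζ j * (starRingEnd ℂ) (ζ j) =
        ((ρ p ^ m * ∑ i, ∑ j, b i j p ^ 2 * (ν j ^ 2 + τ j ^ 2) : ℝ) : ℂ) := by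
      rw [Finset.mul_sum]
      push_cast
      refine Finset.sum_congr rfl fun i _ => ?_
      rw [Finset.mul_sum]
      refine Finset.sum_congr rfl fun j _ => ?_
      rw [hζc]
      simp only [hζ]
      linear_combination (-((ρ p : ℂ) ^ m * (b i j p : ℂ) ^ 2 * (τ j : ℂ) ^ 2)) * Complex.I_sq
    rw [h5] at h4
    refine h4.congr fun N => ?_
    simp only [← Finset.mul_sum]
    congr 1
    have i1 : ∀ i j, IntegrableOn (fun x => ((ρ x ^ m : ℝ) : ℂ) *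
        ((ρ x ^ m * b i j x ^ 2 : ℝ) : ℂ) * pd j (U N) x * (starRingEnd ℂ) (pd j (U N) x))
        (Om ρ) := fun i j =>
      om_int hρ (((cr.mul (Complex.continuous_ofReal.comp (cm.mul ((cb i j).pow 2)))).mul
        (cU N j)).mul (cUc N j))
    rw [← (integral_finsetSum _ fun i _ => integrable_finsetSum _ fun j _ => i1 i j).trans
      (Finset.sum_congr rfl fun i _ => integral_finsetSum _ fun j _ => i1 i j)]
    refine Eq.trans ?_ integral_ofReal
    refine integral_congr_ae (Eventually.of_forall fun x => ?_)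
    show _ = ((∑ i, ∑ j, |t x i j - dl i j| ^ 2 * ‖pd j (U N) x‖ ^ 2 : ℝ) : ℂ)
    simp only [hh, sq_abs]
    push_cast
    refine Finset.sum_congr rfl fun i _ => Finset.sum_congr rfl fun j _ => ?_
    have h6 : ((‖pd j (U N) x‖ : ℝ) : ℂ) ^ 2 = pd j (U N) x * (starRingEnd ℂ) (pd j (U N) x) := by
      rw [Complex.mul_conj, Complex.normSq_eq_norm_sq]
      push_cast
      rfl
    rw [h6]
    ring
  -- comparison
  have h7 : ‖(q : ℂ)‖ ≤ 2 * n * ‖((ρ p ^ m * ∑ i, ∑ j, b i j p ^ 2 * (ν j ^ 2 + τ j ^ 2) : ℝ) : ℂ)‖ := by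
    refine le_of_tendsto_of_tendsto' L1.norm (R1.norm.const_mul (2 * (n : ℝ))) fun N => ?_
    rw [norm_mul, norm_mul, Complex.norm_real]
    have h8 : 0 ≤ ∫ x in Om ρ, ∑ i, ∑ j, |t x i j - dl i j| ^ 2 * ‖pd j (U N) x‖ ^ 2 :=
      integral_nonneg fun x => Finset.sum_nonneg fun i _ => Finset.sum_nonneg fun j _ => by
        positivity
    rw [Real.norm_of_nonneg h8]
    have h9 := mul_le_mul_of_nonneg_left (hen (U N) (hU N) (hUh N))
      (norm_nonneg (((Z N : ℝ) : ℂ)⁻¹))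
    linarith
  rw [Complex.norm_real, Complex.norm_real, Real.norm_eq_abs, Real.norm_eq_abs] at h7
  have hρm : 0 ≤ ρ p ^ m := by rw [hp]; positivity
  have h10 : ∀ j, ν j ^ 2 + τ j ^ 2 ≤ 2 := fun j => by
    have a1 : ν j ^ 2 ≤ 1 := h1 ▸ Finset.single_le_sum (f := fun i => ν i ^ 2)
      (fun i _ => sq_nonneg _) (Finset.mem_univ j)
    have a2 : τ j ^ 2 ≤ 1 := h2 ▸ Finset.single_le_sum (f := fun i => τ i ^ 2)
      (fun i _ => sq_nonneg _) (Finset.mem_univ j)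
    linarith
  have h11 : 0 ≤ ∑ i, ∑ j, b i j p ^ 2 * (ν j ^ 2 + τ j ^ 2) :=
    Finset.sum_nonneg fun i _ => Finset.sum_nonneg fun j _ => by positivity
  have h12 : ∑ i, ∑ j, b i j p ^ 2 * (ν j ^ 2 + τ j ^ 2) ≤ 2 * ∑ i, ∑ j, b i j p ^ 2 := by
    simp only [Finset.mul_sum]
    refine Finset.sum_le_sum fun i _ => Finset.sum_le_sum fun j _ => ?_
    have := mul_le_mul_of_nonneg_left (h10 j) (sq_nonneg (b i j p))
    linarith
  rw [abs_of_nonneg (mul_nonneg hρm h11)] at h7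
  have h13 := mul_le_mul_of_nonneg_left (mul_le_mul_of_nonneg_left h12 hρm)
    (by positivity : (0 : ℝ) ≤ 2 * n)
  linarith

/-- **(BDE)**, over the theorem `conc_in` -/
theorem bde' (he : RowENE) : RowBDE := by
  intro n hn
  have hn0 : (0 : ℝ) < n := by
    have : 0 < n := by omega
    exact_mod_cast this
  refine ⟨1 / (16 * n ^ 3), by positivity, ?_⟩
  intro ρ hρ t ht hsym hSE ha m b hb hs hh hbν
  exact bd_core hn hρ ha (key' hρ (he ρ hρ t ht hsym hSE fun x hx i j =>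
    (ha x hx i j).trans (small hn)) hb hs hh) hb hs hh hbν

end Vale.Agent.P088.LR.B.H43
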